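import Vale.Agent.P181.MR.Defs
import Vale.Agent.P181.SZR5.Basic
import Vale.Agent.P181.SZR4.Few

set_option autoImplicit false

/-!
# P181, MR [ORB]: the trace lemma

`f ↦ (∑ h ∈ G, rename h (rename g⁻¹ P * f))_{g ∈ G}` is injective: the matrix `rename (h g⁻¹) P`
over the domain of polynomials is a nonzero scalar at the point `x`.
-/

open MvPolynomial

namespace Vale.Agent.P181.MR.H752

open Vale.Agent.P181.T4 (HW)
open Vale.Agent.P181.SZ
open Vale.Agent.P181.TL (KK)
open Vale.Agent.P181.SZR4 (vm ren_mem_HW coeff_ren)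

variable {m : ℕ} {σ : Type}

/-- Renaming the columns by a permutation. -/
noncomputable def rn (e : Equiv.Perm σ) :
    MvPolynomial (Fin m × σ) ℂ →ₐ[ℂ] MvPolynomial (Fin m × σ) ℂ :=
  rename (fun p : Fin m × σ => (p.1, e p.2))

lemma rn_rn (e f : Equiv.Perm σ) (P : MvPolynomial (Fin m × σ) ℂ) :
    rn e (rn f P) = rn (e * f) P := by
  rw [rn, rn, rn, rename_rename]
  rfl

lemma rn_one (P : MvPolynomial (Fin m × σ) ℂ) : rn (1 : Equiv.Perm σ) P = P := by
  have h : (fun p : Fin m × σ => (p.1, (1 : Equiv.Perm σ) p.2)) = id := by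
    funext p
    rfl
  rw [rn, h, rename_id]
  rfl

lemma eval_rn (x : Fin m × σ → ℂ) (e : Equiv.Perm σ) (P : MvPolynomial (Fin m × σ) ℂ) :
    eval x (rn e P) = eval (fun p : Fin m × σ => x (p.1, e p.2)) P := by
  rw [rn, eval_rename]
  rfl

variable [Fintype σ]

lemma rn_HW (e : Equiv.Perm σ) {mu : Fin m → ℕ} {f : MvPolynomial (Fin m × σ) ℂ}
    (hf : f ∈ HW m σ mu) : rn e f ∈ HW m σ mu := ren_mem_HW e.injective hf

omit [Fintype σ] in
lemma rn_col (e : Equiv.Perm σ) {d d' : σ → ℕ} {f : MvPolynomial (Fin m × σ) ℂ}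
    (hf : ∀ v, coeff v f ≠ 0 → ∀ j, ∑ i, v (i, j) = d j) (hd : ∀ j, d' (e j) = d j) :
    ∀ v, coeff v (rn e f) ≠ 0 → ∀ j, ∑ i, v (i, j) = d' j := by
  intro v hv j
  obtain ⟨u, hu, h1, _⟩ := coeff_ren (g := e) e.injective hv
  obtain ⟨k, rfl⟩ := e.surjective j
  rw [hd, ← hf u hu k]
  exact Finset.sum_congr rfl fun i _ => h1 i k

omit [Fintype σ] in
lemma mul_col {d d' : σ → ℕ} {f g : MvPolynomial (Fin m × σ) ℂ}
    (hf : ∀ v, coeff v f ≠ 0 → ∀ j, ∑ i, v (i, j) = d j)
    (hg : ∀ v, coeff v g ≠ 0 → ∀ j, ∑ i, v (i, j) = d' j) :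
    ∀ v, coeff v (f * g) ≠ 0 → ∀ j, ∑ i, v (i, j) = d j + d' j := by
  classical
  intro v hv j
  rw [coeff_mul] at hv
  obtain ⟨⟨u1, u2⟩, hu, h⟩ := Finset.exists_ne_zero_of_sum_ne_zero hv
  rw [Finset.HasAntidiagonal.mem_antidiagonal] at hu
  rw [← hf u1 (left_ne_zero_of_mul h) j, ← hg u2 (right_ne_zero_of_mul h) j, ← hu]
  simp only [Finsupp.add_apply, Finset.sum_add_distrib]

/-- **[ORB]** the trace lemma -/
theorem orbM : OrbM := by
  classical
  intro m σ _ _ c r mu rho P x g hP hx h hg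
  -- the group
  let G : Subgroup (Equiv.Perm σ) :=
    { carrier := {e | ∀ j, c (e j) + r (e j) = c j + r j}
      mul_mem' := by
        intro e f he hf j
        show c (e (f j)) + r (e (f j)) = c j + r j
        rw [he (f j), hf j]
      one_mem' := fun j => rfl
      inv_mem' := by
        intro e he j
        have h1 := he (e⁻¹ j)
        have h2 : e (e⁻¹ j) = j := e.apply_symm_apply j
        rw [h2] at h1
        exact h1.symm }
  have hGmem : ∀ e : Equiv.Perm σ, e ∈ G ↔ ∀ j, c (e j) + r (e j) = c j + r j := fun e => Iff.rfl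
  have hr : ∀ e ∈ G, ∀ j, r (e j) = r j := fun e he => (h e he).1
  have hc : ∀ e ∈ G, ∀ j, c (e j) = c j := by
    intro e he j
    have h1 := (hGmem e).1 he j
    have h2 := hr e he j
    omega
  let W : Submodule ℂ (MvPolynomial (Fin m × σ) ℂ) :=
    PK m σ (fun j => c j + r j) (fun i => mu i + rho i)
  -- the traces
  have key : ∀ (k : G) (f : MvPolynomial (Fin m × σ) ℂ), f ∈ KK m σ c mu →
      ∑ e : G, rn (e : Equiv.Perm σ) (rn ((k : Equiv.Perm σ)⁻¹) P * f) ∈ W := by
    intro k f hf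
    have hk : (k : Equiv.Perm σ)⁻¹ ∈ G := G.inv_mem k.2
    have h1 : rn ((k : Equiv.Perm σ)⁻¹) P * f ∈ HW m σ (fun i => mu i + rho i) := by
      have h2 := SZR5.HW_mul (rn_HW ((k : Equiv.Perm σ)⁻¹) hP.1) hf.1
      have h3 : rho + mu = fun i => mu i + rho i := by
        funext i
        exact add_comm _ _
      rwa [h3] at h2
    have h4 : ∀ v, coeff v (rn ((k : Equiv.Perm σ)⁻¹) P * f) ≠ 0 →
        ∀ j, ∑ i, v (i, j) = c j + r j := by
      intro v hv j
      rw [add_comm]
      exact mul_col (rn_col _ hP.2 fun j => hr _ hk j) hf.2 v hv j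
    have h5 : ∀ e : G, rn (e : Equiv.Perm σ) (rn ((k : Equiv.Perm σ)⁻¹) P * f) ∈
        HW m σ (fun i => mu i + rho i) := fun e => rn_HW _ h1
    have h6 : ∀ (e : G) v, coeff v (rn (e : Equiv.Perm σ) (rn ((k : Equiv.Perm σ)⁻¹) P * f)) ≠ 0 →
        ∀ j, ∑ i, v (i, j) = c j + r j := fun e => rn_col _ h4 fun j => (hGmem _).1 e.2 j
    refine ⟨Submodule.sum_mem _ fun e _ => h5 e, fun v hv j => ?_, fun e he => ?_⟩
    · rw [coeff_sum] at hv
      obtain ⟨e, _, he⟩ := Finset.exists_ne_zero_of_sum_ne_zero hv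
      exact h6 e v he j
    · have heG : e ∈ G := he
      show rn e (∑ e' : G, rn (e' : Equiv.Perm σ) (rn ((k : Equiv.Perm σ)⁻¹) P * f)) = _
      rw [map_sum]
      refine Fintype.sum_equiv (Equiv.mulLeft (⟨e, heG⟩ : G)) _ _ fun e' => ?_
      rw [rn_rn]
      rfl
  let L : KK m σ c mu →ₗ[ℂ] (G → W) :=
    { toFun := fun f k => ⟨_, key k f.1 f.2⟩
      map_add' := by
        intro f f'
        funext k
        apply Subtype.ext
        show ∑ e : G, rn (e : Equiv.Perm σ) (rn ((k : Equiv.Perm σ)⁻¹) P * (f.1 + f'.1)) =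
          ∑ e : G, rn (e : Equiv.Perm σ) (rn ((k : Equiv.Perm σ)⁻¹) P * f.1) +
            ∑ e : G, rn (e : Equiv.Perm σ) (rn ((k : Equiv.Perm σ)⁻¹) P * f'.1)
        rw [← Finset.sum_add_distrib]
        refine Finset.sum_congr rfl fun e _ => ?_
        rw [mul_add, map_add]
      map_smul' := by
        intro a f
        funext k
        apply Subtype.ext
        show ∑ e : G, rn (e : Equiv.Perm σ) (rn ((k : Equiv.Perm σ)⁻¹) P * (a • f.1)) =
          a • ∑ e : G, rn (e : Equiv.Perm σ) (rn ((k : Equiv.Perm σ)⁻¹) P * f.1)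
        rw [Finset.smul_sum]
        refine Finset.sum_congr rfl fun e _ => ?_
        rw [mul_smul_comm, map_smul] }
  have hL : Function.Injective L := by
    rw [← LinearMap.ker_eq_bot, LinearMap.ker_eq_bot']
    intro f hf
    have h1 : ∀ k : G,
        ∑ e : G, rn (e : Equiv.Perm σ) (rn ((k : Equiv.Perm σ)⁻¹) P * f.1) = 0 := by
      intro k
      have h2 := congrFun hf k
      exact congrArg Subtype.val h2
    let A : Matrix G G (MvPolynomial (Fin m × σ) ℂ) :=
      Matrix.of fun k e => rn ((e : Equiv.Perm σ) * (k : Equiv.Perm σ)⁻¹) P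
    have hA : A.mulVec (fun e => rn (e : Equiv.Perm σ) f.1) = 0 := by
      funext k
      rw [Matrix.mulVec, dotProduct, Pi.zero_apply, ← h1 k]
      refine Finset.sum_congr rfl fun e _ => ?_
      rw [map_mul, rn_rn]
      rfl
    have hdet : A.det ≠ 0 := by
      intro h0
      have h2 : (eval x) A.det = 0 := by rw [h0, map_zero]
      rw [RingHom.map_det] at h2
      have h3 : (eval x).mapMatrix A = Matrix.diagonal fun _ => eval x P := by
        ext k e
        rw [RingHom.mapMatrix_apply, Matrix.map_apply]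
        show eval x (rn ((e : Equiv.Perm σ) * (k : Equiv.Perm σ)⁻¹) P) = _
        by_cases hke : k = e
        · subst hke
          rw [mul_inv_cancel, rn_one, Matrix.diagonal_apply_eq]
        · rw [Matrix.diagonal_apply_ne _ hke, eval_rn]
          refine (h _ ?_).2 ?_
          · exact (hGmem _).1 (G.mul_mem e.2 (G.inv_mem k.2))
          · intro h4
            apply hke
            apply Subtype.ext
            exact (mul_inv_eq_one.1 h4).symm
      rw [h3, Matrix.det_diagonal, Finset.prod_const] at h2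
      exact pow_ne_zero _ hx h2
    have h5 := Matrix.eq_zero_of_mulVec_eq_zero hdet hA
    have h6 := congrFun h5 1
    apply Subtype.ext
    show f.1 = 0
    have h7 : rn ((1 : G) : Equiv.Perm σ) f.1 = 0 := h6
    rwa [OneMemClass.coe_one, rn_one] at h7
  have h8 := LinearMap.finrank_le_finrank_of_injective hL
  rw [Module.finrank_pi_fintype, Finset.sum_const, smul_eq_mul, Finset.card_univ] at h8
  have h9 : Fintype.card G = Fintype.card
      {e : Equiv.Perm σ // ∀ j, c (e j) + r (e j) = c j + r j} :=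
    Fintype.card_congr (Equiv.refl _)
  refine h8.trans (Nat.mul_le_mul_right _ ?_)
  rw [h9]
  convert hg

end Vale.Agent.P181.MR.H752
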